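import Vale.Agent.P251.H240.Spectra

/-!
# Bousfield localization in the stable homotopy category
-/

open CategoryTheory

namespace Vale.Agent.P251.Stable

open PSpace Spectrum

/-- The `r`-th power map `Ω X → Ω X`: precomposition with multiplication by `r` on `ℝ/ℤ`. -/
def PSpace.powLoop (r : ℕ) (X : PSpace) : Om.obj X ⟶ Om.obj X where
  toMap :=
    { toFun := fun γ => ⟨γ.1.comp ⟨fun t => r • t, by fun_prop⟩, by
        change γ.1 (r • (0 : UnitAddCircle)) = X.pt
        rw [smul_zero]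
        exact γ.2⟩
      continuous_toFun := by
        refine Continuous.subtype_mk ?_ _
        exact (ContinuousMap.continuous_precomp _).comp continuous_subtype_val }
  map_pt := rfl

/-- Multiplication by `r` on `π_{m+1}(X_n)`, as a map `Ω^{m+1} X_n → Ω^{m+1} X_n`. -/
def Spectrum.Lmul (X : Spectrum) (r m n : ℕ) : X.L (m + 1) n → X.L (m + 1) n :=
  Hom.app ((loops m).map (PSpace.powLoop r (X.space n)))

/-- All stable homotopy groups `π_k W` are torsion groups, that is, the rationalization of `W` is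
zero. -/
def RatAcyclic (W : Spectrum) : Prop :=
  ∀ m n (a : W.L (m + 1) n), ∃ r : ℕ, 0 < r ∧
    ∃ j, Joined (W.stab (m + 1) n j (W.Lmul r m n a)) (W.Lpt (m + 1 + j) (n + j))

/-- Multiplication by `p` is bijective on all stable homotopy groups `π_k W`, that is, `W/p` is
zero. -/
def ModAcyclic (p : ℕ) (W : Spectrum) : Prop :=
  (∀ m n (a : W.L (m + 1) n), Joined (W.Lmul p m n a) (W.Lpt (m + 1) n) →
    ∃ j, Joined (W.stab (m + 1) n j a) (W.Lpt (m + 1 + j) (n + j))) ∧
  (∀ m n (a : W.L m n), ∃ (j : ℕ) (b : W.L (m + j + 1) (n + j + 1)),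
    Joined (W.Lmul p (m + j) (n + j + 1) b) (W.stab m n (j + 1) a))

/-- The `K`-cohomology `K^*(W)` is zero: for all `i, j ≥ 0` the only map `Σ^j W ⟶ Σ^i K` in the
stable homotopy category is the zero map. -/
def CohAcyclic (K W : Spectrum) : Prop :=
  ∀ i j : ℕ, Subsingleton ((Shi j).obj (Q.obj W) ⟶ (Shi i).obj (Q.obj K))

/-- An object `Z` of the stable homotopy category is local with respect to a class `A` of
acyclic spectra if there are no nonzero maps from spectra in `A` to `Z`. -/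
def IsLocal (A : Spectrum → Prop) (Z : SH) : Prop :=
  ∀ W, A W → Subsingleton (Q.obj W ⟶ Z)

/-- `f : X ⟶ Y` is the Bousfield localization of `X` with respect to a class `A` of acyclic
spectra: `Y` is local, and `f` is the universal map from `X` to a local object. -/
def IsLocalization (A : Spectrum → Prop) {X Y : SH} (f : X ⟶ Y) : Prop :=
  IsLocal A Y ∧ ∀ Z, IsLocal A Z → Function.Bijective (fun g : Y ⟶ Z => f ≫ g)

/-- For a family `K 1, K 2, …` of spectra (the Morava K-theories): `W` is acyclic for the theory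
of height `i`, where the theory of height `0` is rational homology. -/
def HeightAcyclic (K : ℕ → Spectrum) : ℕ → Spectrum → Prop
  | 0, W => RatAcyclic W
  | i + 1, W => CohAcyclic (K (i + 1)) W

/-- `W` is acyclic for the theories of heights `0, 1, …, n`. For Morava K-theories these are the
`E(n)`-acyclic spectra. -/
def UpToAcyclic (K : ℕ → Spectrum) (n : ℕ) (W : Spectrum) : Prop :=
  ∀ i ≤ n, HeightAcyclic K i W

/-- A class of acyclic spectra contained in another one has more local objects. -/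
lemma IsLocal.mono {A B : Spectrum → Prop} (h : ∀ W, A W → B W) {Z : SH} (hZ : IsLocal B Z) :
    IsLocal A Z :=
  fun W hW => hZ W (h W hW)

lemma IsNull.comp_right {X Y Z : SH} {f : X ⟶ Y} (hf : IsNull f) (g : Y ⟶ Z) :
    IsNull (f ≫ g) := by
  obtain ⟨a, b, rfl⟩ := hf
  exact ⟨a, b ≫ g, by rw [Category.assoc]⟩

lemma IsNull.comp_left {X Y Z : SH} {g : Y ⟶ Z} (hg : IsNull g) (f : X ⟶ Y) :
    IsNull (f ≫ g) := by
  obtain ⟨a, b, rfl⟩ := hg
  exact ⟨f ≫ a, b, by rw [Category.assoc]⟩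

/-- The degree of the `k`-th power of an element of degree `m`. -/
def powDeg (m : ℕ) : ℕ → ℕ
  | 0 => 0
  | k + 1 => m + powDeg m k

/-- The `k`-th power of an element of `π_m S`. -/
noncomputable def powPi {m : ℕ} (β : Pi m (Q.obj Spectrum.sphere)) :
    (k : ℕ) → Pi (powDeg m k) (Q.obj Spectrum.sphere)
  | 0 => 𝟙 (Q.obj Spectrum.sphere)
  | k + 1 => mulPi β (powPi β k)

/-- The homotopy groups `π_i Z` (`i ≥ 0`) have a filtration `F^s π_i Z`, `s ≥ 0`, with the following
properties (in our application: the `K(n)`-local `E_n`-based Adams filtration, `N = n²`):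
* `F^0 π_i Z` is everything;
* if `x ∈ π_i S` with `i > 0` and `y ∈ F^s π_j Z` then `x y ∈ F^{s+1} π_{i+j} Z`;
* `F^s π_i Z = F^{s+1} π_i Z` if `s + i` is odd;
* `F^s π_i Z = 0` if `s > N`. -/
def HasVanishingLine (N : ℕ) (Z : SH) : Prop :=
  ∃ F : ℕ → ∀ i : ℕ, Set (Pi i Z),
    (∀ i, F 0 i = Set.univ) ∧
    (∀ s i j (x : Pi i (Q.obj Spectrum.sphere)) (y : Pi j Z), 0 < i → y ∈ F s j →
      mulPi x y ∈ F (s + 1) (i + j)) ∧
    (∀ s i, Odd (s + i) → F s i ⊆ F (s + 1) i) ∧
    (∀ s i, N < s → ∀ y ∈ F s i, IsNull y)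

lemma mulPi_comp {i j : ℕ} {Z : SH} (x : Pi i (Q.obj Spectrum.sphere))
    (y : Pi j (Q.obj Spectrum.sphere)) (u : Q.obj Spectrum.sphere ⟶ Z) :
    mulPi x y ≫ u = mulPi x (y ≫ u : Pi j Z) := by
  change ((shiAdd _ i j).hom ≫ (Shi j).map x ≫ y) ≫ u = (shiAdd _ i j).hom ≫ (Shi j).map x ≫ y ≫ u
  rw [Category.assoc, Category.assoc]

lemma even_powDeg {m : ℕ} (hm : Even m) (k : ℕ) : Even (powDeg m k) := by
  induction k with
  | zero => exact ⟨0, rfl⟩
  | succ k ih => exact hm.add ih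

/-- The `k`-th power of an element of positive even degree maps to zero in `π_* Z` if `2 k`
exceeds the length of the filtration. -/
lemma isNull_powPi {N : ℕ} {Z : SH} (h : HasVanishingLine N Z) (u : Q.obj Spectrum.sphere ⟶ Z)
    {m : ℕ} (hm : 0 < m) (hm' : Even m) (β : Pi m (Q.obj Spectrum.sphere)) (k : ℕ)
    (hk : N < 2 * k) : IsNull (powPi β k ≫ u) := by
  obtain ⟨F, h0, h1, h2, h3⟩ := h
  have key : ∀ k, (powPi β k ≫ u : Pi (powDeg m k) Z) ∈ F (2 * k) (powDeg m k) := by
    intro k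
    induction k with
    | zero => rw [Nat.mul_zero, h0]; exact Set.mem_univ _
    | succ k ih =>
      have h5 := h1 (2 * k) m (powDeg m k) β _ hm ih
      rw [← mulPi_comp] at h5
      refine h2 (2 * k + 1) _ ?_ h5
      have h6 := even_powDeg hm' (k + 1)
      have h7 : Odd (2 * k + 1) := ⟨k, rfl⟩
      exact h7.add_even h6
  exact h3 _ _ hk _ (key k)

/-- The abstract argument: a power `β^k` which is zero in `π_* L_{K(n)} S_p` but not in
`π_* L_{K(m)} S_p`, `m < n`, shows that `L_{n-1} S_p ⟶ L_{n-1} L_{K(n)} S_p` has no retraction. -/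
theorem no_retraction (K : ℕ → Spectrum) {n m : ℕ} (hmn : m ≤ n)
    {S₀ X Z Y V : SH} (l : S₀ ⟶ X) (hl : IsLocalization (UpToAcyclic K n) l)
    (z : S₀ ⟶ Z) (y : Z ⟶ Y) (v : S₀ ⟶ V) (hv : IsLocalization (HeightAcyclic K m) v)
    (i : X ⟶ Y) (hi : l ≫ i = z ≫ y) {W : SH} (x : W ⟶ S₀) (hx : IsNull (x ≫ z))
    (hx' : ¬ IsNull (x ≫ v)) : ¬ ∃ r : Y ⟶ X, i ≫ r = 𝟙 X := by
  rintro ⟨r, hr⟩
  have hV : IsLocal (UpToAcyclic K n) V := hv.1.mono (fun W hW => hW m hmn)
  obtain ⟨v', hv'⟩ := (hl.2 V hV).2 v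
  apply hx'
  have h1 : x ≫ v = (x ≫ z) ≫ (y ≫ r ≫ v') := by
    have h2 : l = z ≫ y ≫ r := by
      rw [← Category.comp_id l, ← hr, ← Category.assoc, hi, Category.assoc]
    have hv'' : l ≫ v' = v := hv'
    rw [← hv'', Category.assoc]
    conv_lhs => rw [h2]
    simp only [Category.assoc]
  rw [h1]
  exact hx.comp_right _

end Vale.Agent.P251.Stable
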