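import Vale.Agent.P251.H240.SH
import Mathlib.AlgebraicTopology.SingularSet
import Mathlib.AlgebraicTopology.SimplicialSet.Nerve
import Mathlib.CategoryTheory.SingleObj
import Mathlib.Data.ZMod.Basic
import Mathlib.Logic.Equiv.Fin.Rotate
import Mathlib.SetTheory.Cardinal.Finite

/-!
# Bousfield localization and Morava K-theory in the stable homotopy category
-/

open CategoryTheory

namespace Vale.Agent.P251.SHC

open Spectrum

/-- Multiplication by `r` on `π_{m+1}(X_n)`: the first coordinate of the torus is multiplied by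
`r`. -/
def timesMap {A : Type} {m : ℕ} (r : ℕ) (a : Torus (m + 1) → A) (t : Torus (m + 1)) : A :=
  a fun i => if i = 0 then r • t i else t i

/-- All stable homotopy groups `π_k W` are torsion groups (`W` is rationally acyclic). -/
def RatAcyclic (W : Spectrum) : Prop :=
  ∀ m n (a : Torus (m + 1) → W.space n), W.Based a →
    ∃ r : ℕ, 0 < r ∧ ∃ j, W.Null (W.stabs (timesMap r a) j)

/-- Multiplication by `p` is bijective on all stable homotopy groups `π_k W` (`W` is acyclic for
the mod `p` Moore spectrum). -/
def ModAcyclic (p : ℕ) (W : Spectrum) : Prop :=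
  (∀ m n (a : Torus (m + 1) → W.space n), W.Based a → W.Null (timesMap p a) →
    ∃ j, W.Null (W.stabs a j)) ∧
  ∀ m n (a : Torus m → W.space n), W.Based a →
    ∃ (j : ℕ) (b : Torus (m + j + 1) → W.space (n + j + 1)), W.Based b ∧
      W.Homotopic (timesMap p b) (W.stabs a (j + 1))

/-- The `K`-cohomology `K^*(W)` is zero: for all `i, j ≥ 0` the only map `Σ^j W ⟶ Σ^i K` in the
stable homotopy category is the zero map. -/
def CohAcyclic (K W : Spectrum) : Prop :=
  ∀ i j : ℕ, Subsingleton ((Shi j).obj (Q.obj W) ⟶ (Shi i).obj (Q.obj K))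

/-- For a family `K 1, K 2, …` of spectra (the Morava K-theories): `W` is acyclic for the theory
of height `i`, where the theory of height `0` is rational homology. -/
def HeightAcyclic (K : ℕ → Spectrum) (i : ℕ) (W : Spectrum) : Prop :=
  if i = 0 then RatAcyclic W else CohAcyclic (K i) W

/-- `W` is acyclic for the theories of heights `0, 1, …, n`. For Morava K-theories these are the
`E(n)`-acyclic spectra. -/
def UpToAcyclic (K : ℕ → Spectrum) (n : ℕ) (W : Spectrum) : Prop :=
  ∀ i ≤ n, HeightAcyclic K i W

/-- An object `Z` of the stable homotopy category is local with respect to a class `A` of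
acyclic spectra if there are no nonzero maps from spectra in `A` to `Z`. -/
def IsLocal (A : Spectrum → Prop) (Z : SH) : Prop :=
  ∀ W, A W → Subsingleton (Q.obj W ⟶ Z)

/-- `f : X ⟶ Y` is the Bousfield localization of `X` with respect to a class `A` of acyclic
spectra: `Y` is local, and `f` is the universal map from `X` to a local object. -/
def IsLocalization (A : Spectrum → Prop) {X Y : SH} (f : X ⟶ Y) : Prop :=
  IsLocal A Y ∧ ∀ Z, IsLocal A Z → Function.Bijective (fun g : Y ⟶ Z => f ≫ g)

/-- The homotopy groups `π_i Z` (`i ≥ 0`) have a filtration `F^s π_i Z`, `s ≥ 0`, with the following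
properties (in our application: the `K(n)`-local `E_n`-based Adams filtration, `N = n²`):
* `F^0 π_i Z` is everything;
* if `x ∈ π_i S` with `i > 0` and `y ∈ F^s π_j Z` then `x y ∈ F^{s+1} π_{j+i} Z`;
* `F^s π_i Z = F^{s+1} π_i Z` if `s + i` is odd;
* `F^s π_i Z = 0` if `s > N`. -/
def HasVanishingLine (N : ℕ) (Z : SH) : Prop :=
  ∃ F : ℕ → ∀ i : ℕ, Set (Pi i Z),
    (∀ i, F 0 i = Set.univ) ∧
    (∀ s i j (x : Pi i S) (y : Pi j Z), 0 < i → y ∈ F s j → mulPi x y ∈ F (s + 1) (j + i)) ∧
    (∀ s i, Odd (s + i) → F s i ⊆ F (s + 1) i) ∧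
    (∀ s i, N < s → ∀ y ∈ F s i, IsNull y)

/-- The block sum of two permutations, a permutation of `Fin (m + n)`. -/
def blockSum {m n : ℕ} (s : Equiv.Perm (Fin m)) (t : Equiv.Perm (Fin n)) :
    Equiv.Perm (Fin (m + n)) :=
  finSumFinEquiv.permCongr (Equiv.Perm.sumCongr s t)

/-- A symmetric ring spectrum: pointed spaces `R_n` with a left action of the symmetric group
`Σ_n`, multiplication maps `R_m ∧ R_n → R_{m+n}` and unit maps `S^0 → R_0` and `S^1 → R_1` such
that the multiplication is associative, unital and `Σ_m × Σ_n`-equivariant and the unit is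
central. Equalities between points of `R_k` and `R_l` with `k = l` are stated as equalities of
pairs (degree, point). -/
structure SymRing where
  /-- the spaces -/
  space : ℕ → Type
  /-- their topologies -/
  [top : ∀ n, TopologicalSpace (space n)]
  /-- the base points -/
  pt : ∀ n, space n
  /-- the action of the symmetric groups -/
  act : ∀ n, Equiv.Perm (Fin n) → space n → space n
  continuous_act : ∀ n s, Continuous (act n s)
  act_pt : ∀ n s, act n s (pt n) = pt n
  act_one : ∀ n x, act n 1 x = x
  act_mul : ∀ n s t x, act n (s * t) x = act n s (act n t x)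
  /-- the multiplication -/
  mul : ∀ m n, space m × space n → space (m + n)
  continuous_mul : ∀ m n, Continuous (mul m n)
  mul_pt : ∀ m n x, mul m n (x, pt n) = pt (m + n)
  pt_mul : ∀ m n y, mul m n (pt m, y) = pt (m + n)
  /-- the unit `S^0 → R_0` -/
  one : space 0
  /-- the unit `S^1 → R_1` -/
  iota : UnitAddCircle → space 1
  continuous_iota : Continuous iota
  iota_zero : iota 0 = pt 1
  mul_one : ∀ m x, mul m 0 (x, one) = x
  one_mul : ∀ n x, (⟨0 + n, mul 0 n (one, x)⟩ : Σ k, space k) = ⟨n, x⟩
  mul_assoc : ∀ l m n x y z, (⟨l + m + n, mul (l + m) n (mul l m (x, y), z)⟩ : Σ k, space k) =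
      ⟨l + (m + n), mul l (m + n) (x, mul m n (y, z))⟩
  mul_act : ∀ m n s t x y, mul m n (act m s x, act n t y) =
      act (m + n) (blockSum s t) (mul m n (x, y))
  central : ∀ n t x, (⟨1 + n, mul 1 n (iota t, x)⟩ : Σ k, space k) =
      ⟨n + 1, act (n + 1) (finRotate (n + 1)) (mul n 1 (x, iota t))⟩

attribute [instance] SymRing.top

namespace SymRing

lemma continuous_str (R : SymRing) (n : ℕ) :
    Continuous fun x : R.space n × UnitAddCircle => R.mul n 1 (x.1, R.iota x.2) :=
  (R.continuous_mul n 1).comp
    (continuous_fst.prodMk (R.continuous_iota.comp continuous_snd))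

lemma str_zero (R : SymRing) (n : ℕ) (x : R.space n) : R.mul n 1 (x, R.iota 0) = R.pt (n + 1) := by
  rw [R.iota_zero, R.mul_pt]

/-- The sequential spectrum of a symmetric ring spectrum, with structure maps
`(x, t) ↦ x · iota(t)`. -/
def toSpectrum (R : SymRing) : Spectrum where
  space := R.space
  pt := R.pt
  str n x := R.mul n 1 (x.1, R.iota x.2)
  continuous_str := R.continuous_str
  str_pt n t := R.pt_mul n 1 (R.iota t)
  str_zero := R.str_zero

/-- The product of (representatives of) elements of `π_m(R_k)` and `π_n(R_l)`, in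
`π_{m+n}(R_{k+l})`. -/
def mulMap (R : SymRing) {m n k l : ℕ} (a : Torus m → R.space k) (b : Torus n → R.space l)
    (t : Torus (m + n)) : R.space (k + l) :=
  R.mul k l (a fun i => t (Fin.castAdd n i), b fun i => t (Fin.natAdd m i))

end SymRing

/-- The classifying space of the cyclic group `ℤ/p`: the geometric realization of its nerve. -/
noncomputable def BCyclic (p : ℕ) : TopCat.{0} :=
  SSet.toTop.obj (nerve (SingleObj (Multiplicative (ZMod p))))

/-- The symmetric ring spectrum `K` is a Morava K-theory of height `n ≥ 1` at the prime `p`: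
* with `d = 2 (p^n - 1)`, the groups `π_i K` and `π_{-i} K` have `p` elements if `d` divides `i` and
  are trivial otherwise (`i ≥ 0`);
* the ring `π_* K` has no zero divisors (so it is the graded field `F_p[v, v^{-1}]`);
* the reduced cohomology group `K^0(B(Z/p))` has `p` elements, for every choice of base point (so
  the height is `n`, and not a proper multiple of `n`). -/
def IsMoravaK (p n : ℕ) (K : SymRing) : Prop :=
  (∀ i, Nat.card (Pi i (Q.obj K.toSpectrum)) = if 2 * (p ^ n - 1) ∣ i then p else 1) ∧
  (∀ i, Nat.card (S ⟶ (Shi i).obj (Q.obj K.toSpectrum)) = if 2 * (p ^ n - 1) ∣ i then p else 1) ∧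
  (∀ (m m' k k' : ℕ) (a : Torus m → K.space k) (b : Torus m' → K.space k'),
    K.toSpectrum.Based a → K.toSpectrum.Based b → K.toSpectrum.Null (K.mulMap a b) →
      (∃ j, K.toSpectrum.Null (K.toSpectrum.stabs a j)) ∨
        ∃ j, K.toSpectrum.Null (K.toSpectrum.stabs b j)) ∧
  ∀ b : BCyclic p, Nat.card (Q.obj (suspSpectrum b) ⟶ Q.obj K.toSpectrum) = p

end Vale.Agent.P251.SHC
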