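import Mathlib.CategoryTheory.Localization.Construction
import Mathlib.Topology.CompactOpen
import Mathlib.Topology.Instances.AddCircle.Real
import Mathlib.Topology.UnitInterval

/-!
# The stable homotopy category

Sequential spectra, stable homotopy groups, and the stable homotopy category as the localization
of the category of sequential spectra at the stable equivalences.
-/

open CategoryTheory

namespace Vale.Agent.P251.SHC

/-- The `m`-torus `(ℝ/ℤ)^m`. The `m`-sphere is its quotient by the points with a zero
coordinate. -/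
def Torus (m : ℕ) : Type := Fin m → UnitAddCircle

instance (m : ℕ) : TopologicalSpace (Torus m) := Pi.topologicalSpace

/-- A sequential spectrum: spaces `X_n` with base points and structure maps
`X_n ∧ S¹ → X_{n+1}`, given as maps `X_n × S¹ → X_{n+1}`. -/
structure Spectrum where
  /-- the spaces -/
  space : ℕ → Type
  /-- their topologies -/
  [top : ∀ n, TopologicalSpace (space n)]
  /-- the base points -/
  pt : ∀ n, space n
  /-- the structure maps -/
  str : ∀ n, space n × UnitAddCircle → space (n + 1)
  continuous_str : ∀ n, Continuous (str n)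
  str_pt : ∀ n t, str n (pt n, t) = pt (n + 1)
  str_zero : ∀ n x, str n (x, 0) = pt (n + 1)

attribute [instance] Spectrum.top

namespace Spectrum

/-- A map of sequential spectra. -/
@[ext]
structure Hom (X Y : Spectrum) where
  /-- the components -/
  map : ∀ n, X.space n → Y.space n
  continuous_map : ∀ n, Continuous (map n)
  map_pt : ∀ n, map n (X.pt n) = Y.pt n
  comm : ∀ n x t, map (n + 1) (X.str n (x, t)) = Y.str n (map n x, t)

/-- The identity map. -/
def Hom.id (X : Spectrum) : Hom X X where
  map _ x := x
  continuous_map _ := continuous_id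
  map_pt _ := rfl
  comm _ _ _ := rfl

lemma Hom.comp_continuous {X Y Z : Spectrum} (f : Hom X Y) (g : Hom Y Z) (n : ℕ) :
    Continuous fun x => g.map n (f.map n x) :=
  (g.continuous_map n).comp (f.continuous_map n)

lemma Hom.comp_map_pt {X Y Z : Spectrum} (f : Hom X Y) (g : Hom Y Z) (n : ℕ) :
    g.map n (f.map n (X.pt n)) = Z.pt n := by
  rw [f.map_pt, g.map_pt]

lemma Hom.comp_comm {X Y Z : Spectrum} (f : Hom X Y) (g : Hom Y Z) (n : ℕ) (x : X.space n)
    (t : UnitAddCircle) :
    g.map (n + 1) (f.map (n + 1) (X.str n (x, t))) = Z.str n (g.map n (f.map n x), t) := by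
  rw [f.comm, g.comm]

/-- Composition. -/
def Hom.comp {X Y Z : Spectrum} (f : Hom X Y) (g : Hom Y Z) : Hom X Z where
  map n x := g.map n (f.map n x)
  continuous_map := f.comp_continuous g
  map_pt := f.comp_map_pt g
  comm := f.comp_comm g

lemma Hom.id_comp {X Y : Spectrum} (f : Hom X Y) : (Hom.id X).comp f = f := rfl

lemma Hom.comp_id {X Y : Spectrum} (f : Hom X Y) : f.comp (Hom.id Y) = f := rfl

lemma Hom.assoc {X Y Z W : Spectrum} (f : Hom X Y) (g : Hom Y Z) (h : Hom Z W) :
    (f.comp g).comp h = f.comp (g.comp h) := rfl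

instance : Category Spectrum where
  Hom := Hom
  id := Hom.id
  comp := Hom.comp
  id_comp := Hom.id_comp
  comp_id := Hom.comp_id
  assoc := Hom.assoc

/-- `a` represents an element of `π_m(X_n)`: it is continuous and sends all points of the torus
with a zero coordinate to the base point. -/
def Based (X : Spectrum) {m n : ℕ} (a : Torus m → X.space n) : Prop :=
  Continuous a ∧ ∀ t, (∃ i, t i = 0) → a t = X.pt n

/-- Homotopies through maps sending all points of the torus with a zero coordinate to the base
point: `a` and `b` represent the same element of `π_m(X_n)`. -/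
def Homotopic (X : Spectrum) {m n : ℕ} (a b : Torus m → X.space n) : Prop :=
  ∃ H : unitInterval × Torus m → X.space n, Continuous H ∧ (∀ t, H (0, t) = a t) ∧
    (∀ t, H (1, t) = b t) ∧ ∀ s t, (∃ i, t i = 0) → H (s, t) = X.pt n

/-- `a` represents the zero element of `π_m(X_n)`. -/
def Null (X : Spectrum) {m n : ℕ} (a : Torus m → X.space n) : Prop :=
  X.Homotopic a fun _ => X.pt n

/-- The suspension map `π_m(X_n) → π_{m+1}(X_{n+1})`. -/
def stab (X : Spectrum) {m n : ℕ} (a : Torus m → X.space n) (t : Torus (m + 1)) :
    X.space (n + 1) :=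
  X.str n (a fun i => t i.castSucc, t (Fin.last m))

/-- The iterated suspension map `π_m(X_n) → π_{m+j}(X_{n+j})`. -/
def stabs (X : Spectrum) {m n : ℕ} (a : Torus m → X.space n) (j : ℕ) :
    Torus (m + j) → X.space (n + j) :=
  Nat.rec (motive := fun j => Torus (m + j) → X.space (n + j)) a (fun _ b => X.stab b) j

/-- A map of spectra is a stable equivalence if it induces isomorphisms on the stable homotopy
groups `π_k X = colim_n π_{n+k}(X_n)`. Injectivity: an element of `π_m(X_n)` whose image in
`π_m(Y_n)` is zero becomes zero after stabilization. Surjectivity: an element of `π_m(Y_n)` comes,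
after stabilization, from an element of `π_{m+j}(X_{n+j})`. -/
def StableEquiv {X Y : Spectrum} (f : Hom X Y) : Prop :=
  (∀ m n (a : Torus m → X.space n), X.Based a → (Y.Null fun t => f.map n (a t)) →
    ∃ j, X.Null (X.stabs a j)) ∧
  ∀ m n (b : Torus m → Y.space n), Y.Based b →
    ∃ (j : ℕ) (a : Torus (m + j) → X.space (n + j)), X.Based a ∧
      Y.Homotopic (fun t => f.map (n + j) (a t)) (Y.stabs b j)

/-- The class of stable equivalences. -/
def stableEquivalences : MorphismProperty Spectrum := fun _ _ f => StableEquiv f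

/-- The zero spectrum. -/
def zero : Spectrum where
  space _ := Unit
  pt _ := ()
  str _ _ := ()
  continuous_str _ := continuous_const
  str_pt _ _ := rfl
  str_zero _ _ := rfl

/-- The shifted spectrum `(Sh X)_n = X_{n+1}`. -/
def shiftObj (X : Spectrum) : Spectrum where
  space n := X.space (n + 1)
  pt n := X.pt (n + 1)
  str n := X.str (n + 1)
  continuous_str n := X.continuous_str (n + 1)
  str_pt n := X.str_pt (n + 1)
  str_zero n := X.str_zero (n + 1)

/-- The shifted map. -/
def shiftMap {X Y : Spectrum} (f : Hom X Y) : Hom (shiftObj X) (shiftObj Y) where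
  map n := f.map (n + 1)
  continuous_map n := f.continuous_map (n + 1)
  map_pt n := f.map_pt (n + 1)
  comm n := f.comm (n + 1)

lemma shiftMap_id (X : Spectrum) : shiftMap (Hom.id X) = Hom.id (shiftObj X) := rfl

lemma shiftMap_comp {X Y Z : Spectrum} (f : Hom X Y) (g : Hom Y Z) :
    shiftMap (f.comp g) = (shiftMap f).comp (shiftMap g) := rfl

/-- The shift functor. In the stable homotopy category it is the suspension. -/
def shift : Spectrum ⥤ Spectrum where
  obj := shiftObj
  map := shiftMap
  map_id := shiftMap_id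
  map_comp := shiftMap_comp

end Spectrum

open Spectrum

/-- The stable homotopy category: the localization of the category of sequential spectra at the
stable equivalences. -/
def SH : Type 1 := stableEquivalences.Localization

instance : Category.{1} SH := inferInstanceAs (Category stableEquivalences.Localization)

/-- The localization functor from spectra to the stable homotopy category. -/
def Q : Spectrum ⥤ SH := stableEquivalences.Q

lemma sigma_stabs_shift (X : Spectrum) (m n j : ℕ) (a : Torus m → (shiftObj X).space n) :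
    (⟨(n + j) + 1, (shiftObj X).stabs a j⟩ : Σ r, (Torus (m + j) → X.space r)) =
      ⟨(n + 1) + j, X.stabs (n := n + 1) a j⟩ := by
  induction j with
  | zero => rfl
  | succ j ih =>
    exact congrArg (fun x : Σ r, (Torus (m + j) → X.space r) =>
      (⟨x.1 + 1, X.stab x.2⟩ : Σ r, (Torus (m + j + 1) → X.space r))) ih

/-- The shift functor preserves stable equivalences. -/
lemma stableEquiv_shift {X Y : Spectrum} (f : Hom X Y) (hf : StableEquiv f) :
    StableEquiv (shiftMap f) := by
  constructor
  · intro m n a ha ha'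
    obtain ⟨j, hj⟩ := hf.1 m (n + 1) a ha ha'
    refine ⟨j, ?_⟩
    have h := sigma_stabs_shift X m n j a
    let P : (Σ r, (Torus (m + j) → X.space r)) → Prop := fun x => X.Null x.2
    have h1 : P ⟨(n + 1) + j, X.stabs (n := n + 1) a j⟩ := hj
    rw [← h] at h1
    exact h1
  · intro m n b hb
    obtain ⟨j, a, ha, ha'⟩ := hf.2 m (n + 1) b hb
    have h := sigma_stabs_shift Y m n j b
    let P : (Σ r, (Torus (m + j) → Y.space r)) → Prop := fun x =>
      ∃ a : Torus (m + j) → X.space x.1, X.Based a ∧
        Y.Homotopic (fun t => f.map x.1 (a t)) x.2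
    have h1 : P ⟨(n + 1) + j, Y.stabs (n := n + 1) b j⟩ := ⟨a, ha, ha'⟩
    rw [← h] at h1
    obtain ⟨a', ha', ha''⟩ := h1
    exact ⟨j, a', ha', ha''⟩

lemma shift_inverts : stableEquivalences.IsInvertedBy (shift ⋙ Q) :=
  fun _ _ f hf => stableEquivalences.Q_inverts _ (stableEquiv_shift f hf)

/-- The suspension functor of the stable homotopy category, induced by the shift of spectra. -/
noncomputable def Sh : SH ⥤ SH :=
  Localization.Construction.lift (W := stableEquivalences) (shift ⋙ Q) shift_inverts

/-- The iterated suspension functor. -/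
noncomputable def Shi (i : ℕ) : SH ⥤ SH := Nat.rec (𝟭 SH) (fun _ F => Sh ⋙ F) i

/-- `Σ^{j+i} W ≅ Σ^j Σ^i W`. -/
noncomputable def shiAdd (j i : ℕ) : ∀ W : SH, (Shi (j + i)).obj W ≅ (Shi j).obj ((Shi i).obj W) :=
  Nat.rec (motive := fun i => ∀ W : SH, (Shi (j + i)).obj W ≅ (Shi j).obj ((Shi i).obj W))
    (fun _ => Iso.refl _) (fun _ e W => e (Sh.obj W)) i

/-- The relation defining `A ∧ S^n`: the points `(x, t)` with `x` the base point or `t` with a zero
coordinate are identified. -/
def smashRel {A : Type} (a : A) (n : ℕ) (x y : A × Torus n) : Prop :=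
  (x.1 = a ∨ ∃ i, x.2 i = 0) ∧ (y.1 = a ∨ ∃ i, y.2 i = 0)

/-- The space `A ∧ S^n`. -/
def SmashSphere {A : Type} (a : A) (n : ℕ) : Type := Quot (smashRel a n)

/-- The class of a point of `A × T^n` in `A ∧ S^n`. -/
def smk {A : Type} (a : A) (n : ℕ) (x : A × Torus n) : SmashSphere a n := Quot.mk _ x

/-- The point `(t, u)` of the `(n+1)`-torus. -/
def Torus.snoc {n : ℕ} (t : Torus n) (u : UnitAddCircle) : Torus (n + 1) :=
  Fin.snoc (α := fun _ => UnitAddCircle) t u

lemma Torus.snoc_castSucc {n : ℕ} (t : Torus n) (u : UnitAddCircle) (i : Fin n) :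
    (t.snoc u) i.castSucc = t i := Fin.snoc_castSucc (α := fun _ => UnitAddCircle) u t i

lemma Torus.snoc_last {n : ℕ} (t : Torus n) (u : UnitAddCircle) :
    (t.snoc u) (Fin.last n) = u := Fin.snoc_last (α := fun _ => UnitAddCircle) u t

section

variable {A : Type} (a : A)

lemma smashStr_aux (n : ℕ) (t : UnitAddCircle) (x y : A × Torus n) (h : smashRel a n x y) :
    smk a (n + 1) (x.1, x.2.snoc t) = smk a (n + 1) (y.1, y.2.snoc t) := by
  have key : ∀ x : A × Torus n, (x.1 = a ∨ ∃ i, x.2 i = 0) →
      (x.1 = a ∨ ∃ i, (x.2.snoc t) i = 0) := by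
    intro x hx
    rcases hx with hx | ⟨i, hi⟩
    · exact Or.inl hx
    · exact Or.inr ⟨i.castSucc, by rw [Torus.snoc_castSucc]; exact hi⟩
  exact Quot.sound ⟨key x h.1, key y h.2⟩

/-- The structure map `(A ∧ S^n) × S¹ → A ∧ S^{n+1}`, `([x, t], u) ↦ [x, t, u]`. -/
def smashStr (n : ℕ) (x : SmashSphere a n × UnitAddCircle) : SmashSphere a (n + 1) :=
  Quot.lift (fun y => smk a (n + 1) (y.1, y.2.snoc x.2)) (smashStr_aux a n x.2) x.1

/-- The base point of `A ∧ S^n`. -/
def smashPt (n : ℕ) : SmashSphere a n := smk a n (a, fun _ => 0)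

lemma smashStr_pt (n : ℕ) (t : UnitAddCircle) : smashStr a n (smashPt a n, t) = smashPt a (n + 1) :=
  Quot.sound ⟨Or.inl rfl, Or.inl rfl⟩

lemma smashStr_zero (n : ℕ) (x : SmashSphere a n) : smashStr a n (x, 0) = smashPt a (n + 1) := by
  induction x using Quot.inductionOn with
  | h x => exact Quot.sound ⟨Or.inr ⟨Fin.last n, x.2.snoc_last 0⟩, Or.inl rfl⟩

variable [TopologicalSpace A]

instance (n : ℕ) : TopologicalSpace (SmashSphere a n) :=
  inferInstanceAs (TopologicalSpace (Quot (smashRel a n)))

lemma continuous_smashStr (n : ℕ) : Continuous (smashStr a n) := by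
  have h : Continuous fun x : (A × Torus n) × UnitAddCircle =>
      smk a (n + 1) (x.1.1, x.1.2.snoc x.2) := by
    refine continuous_quot_mk.comp (Continuous.prodMk (by fun_prop) ?_)
    refine continuous_pi fun i => ?_
    refine Fin.lastCases ?_ (fun i => ?_) i
    · simp only [Torus.snoc_last]; fun_prop
    · simp only [Torus.snoc_castSucc]
      exact (continuous_apply i).comp (continuous_snd.comp continuous_fst)
  exact (isQuotientMap_quot_mk (r := smashRel a n)).continuous_lift_prod_left h

/-- The suspension spectrum of the pointed space `(A, a)`, with spaces `A ∧ S^n`. -/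
def suspSpectrum : Spectrum where
  space := SmashSphere a
  pt := smashPt a
  str := smashStr a
  continuous_str := continuous_smashStr a
  str_pt := smashStr_pt a
  str_zero := smashStr_zero a

end

/-- The sphere spectrum, the suspension spectrum of `S⁰ = {false, true}`, as an object of the
stable homotopy category. -/
def S : SH := Q.obj (suspSpectrum true)

/-- The homotopy groups `π_i Z`, for `i ≥ 0`: maps in the stable homotopy category from the
`i`-fold suspension of the sphere spectrum to `Z`. -/
abbrev Pi (i : ℕ) (Z : SH) : Type 1 := (Shi i).obj S ⟶ Z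

/-- The product in `π_{j+i} Z` of `x ∈ π_i S` and `y ∈ π_j Z`: the composite
`Σ^{j+i} S ≅ Σ^j Σ^i S ⟶ Σ^j S ⟶ Z`. -/
noncomputable def mulPi {i j : ℕ} {Z : SH} (x : Pi i S) (y : Pi j Z) : Pi (j + i) Z :=
  (shiAdd j i S).hom ≫ (Shi j).map x ≫ y

/-- The `k`-th power of an element of `π_i S`. -/
noncomputable def powPi {i : ℕ} (x : Pi i S) (k : ℕ) : Pi (i * k) S :=
  Nat.rec (motive := fun k => Pi (i * k) S) (𝟙 S) (fun _ y => mulPi x y) k

/-- A morphism of the stable homotopy category is null if it factors through the zero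
spectrum. -/
def IsNull {X Y : SH} (f : X ⟶ Y) : Prop :=
  ∃ (a : X ⟶ Q.obj Spectrum.zero) (b : Q.obj Spectrum.zero ⟶ Y), f = a ≫ b

end Vale.Agent.P251.SHC
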