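import Mathlib.CategoryTheory.Localization.Construction
import Mathlib.Topology.Connected.PathConnected
import Mathlib.Topology.CompactOpen
import Mathlib.Topology.Instances.AddCircle.Real

/-!
# The stable homotopy category

Pointed spaces, loop spaces, sequential spectra, stable homotopy groups, and the stable homotopy
category as the localization of the category of sequential spectra at the stable equivalences.
-/

open CategoryTheory

namespace Vale.Agent.P251.Stable

/-- A pointed topological space. -/
structure PSpace where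
  /-- the underlying set -/
  carrier : Type
  /-- the topology -/
  [top : TopologicalSpace carrier]
  /-- the base point -/
  pt : carrier

attribute [instance] PSpace.top

/-- A pointed continuous map. -/
@[ext]
structure PSpace.Hom (X Y : PSpace) where
  /-- the underlying continuous map -/
  toMap : C(X.carrier, Y.carrier)
  map_pt : toMap X.pt = Y.pt

instance : Category PSpace where
  Hom := PSpace.Hom
  id X := ⟨ContinuousMap.id _, rfl⟩
  comp f g := ⟨g.toMap.comp f.toMap, by simp [f.map_pt, g.map_pt]⟩

namespace PSpace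

/-- Application of a pointed map. -/
def Hom.app {X Y : PSpace} (f : X ⟶ Y) (x : X.carrier) : Y.carrier := PSpace.Hom.toMap f x

lemma Hom.app_comp {X Y Z : PSpace} (f : X ⟶ Y) (g : Y ⟶ Z) (x : X.carrier) :
    Hom.app (f ≫ g) x = Hom.app g (Hom.app f x) := rfl

lemma Hom.app_id {X : PSpace} (x : X.carrier) : Hom.app (𝟙 X) x = x := rfl

lemma Hom.app_pt {X Y : PSpace} (f : X ⟶ Y) : Hom.app f X.pt = Y.pt := PSpace.Hom.map_pt f

lemma Hom.continuous_app {X Y : PSpace} (f : X ⟶ Y) : Continuous (Hom.app f) :=
  (PSpace.Hom.toMap f).continuous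

/-- Maps of pointed spaces are equal if they agree on points. -/
lemma hom_ext {X Y : PSpace} {f g : X ⟶ Y} (h : ∀ x, Hom.app f x = Hom.app g x) : f = g :=
  PSpace.Hom.ext (ContinuousMap.ext h)

/-- The loop space `Ω X` of a pointed space: pointed maps from the circle `ℝ/ℤ` to `X`, with the
compact-open topology. -/
def loopSpace (X : PSpace) : PSpace where
  carrier := {γ : C(UnitAddCircle, X.carrier) // γ 0 = X.pt}
  pt := ⟨ContinuousMap.const _ X.pt, rfl⟩

/-- The loop functor `Ω`. -/
def Om : PSpace ⥤ PSpace where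
  obj := loopSpace
  map {X Y} f :=
    { toMap :=
        { toFun := fun γ => ⟨(PSpace.Hom.toMap f).comp γ.1, by
            change PSpace.Hom.toMap f (γ.1 0) = _
            rw [γ.2]; exact PSpace.Hom.map_pt f⟩
          continuous_toFun := by
            refine Continuous.subtype_mk ?_ _
            exact (ContinuousMap.continuous_postcomp _).comp continuous_subtype_val }
      map_pt := by
        apply Subtype.ext
        ext t
        exact PSpace.Hom.map_pt f }
  map_id X := rfl
  map_comp f g := rfl

/-- The iterated loop functor `Ω^m`. -/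
def loops : ℕ → (PSpace ⥤ PSpace)
  | 0 => 𝟭 _
  | m + 1 => Om ⋙ loops m

/-- The relation defining the reduced suspension: all points `(t, a)` with `t = 0` or `a = pt` are
identified. -/
def suspRel (A : PSpace) (x y : UnitAddCircle × A.carrier) : Prop :=
  (x.1 = 0 ∨ x.2 = A.pt) ∧ (y.1 = 0 ∨ y.2 = A.pt)

/-- The reduced suspension `Σ A = (ℝ/ℤ) × A / ({0} × A ∪ (ℝ/ℤ) × {pt})`. -/
def susp (A : PSpace) : PSpace where
  carrier := Quot (suspRel A)
  pt := Quot.mk _ (0, A.pt)

/-- The map `A → Ω Σ A`, `a ↦ (t ↦ [t, a])`. -/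
def suspUnit (A : PSpace) : A ⟶ Om.obj (susp A) where
  toMap :=
    { toFun := fun a => ⟨⟨fun t => Quot.mk _ (t, a), by
          exact continuous_quot_mk.comp (by fun_prop)⟩,
        Quot.sound ⟨Or.inl rfl, Or.inl rfl⟩⟩
      continuous_toFun := by
        refine Continuous.subtype_mk ?_ _
        refine ContinuousMap.continuous_of_continuous_uncurry _ ?_
        exact continuous_quot_mk.comp continuous_swap }
  map_pt := by
    apply Subtype.ext
    ext t
    exact Quot.sound ⟨Or.inr rfl, Or.inl rfl⟩

/-- The zero sphere. -/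
def sphereZero : PSpace where
  carrier := Bool
  pt := true

/-- The `n`-sphere, as the `n`-fold suspension of the zero sphere. -/
def sphere : ℕ → PSpace
  | 0 => sphereZero
  | n + 1 => susp (sphere n)

/-- The one point space. -/
def point : PSpace where
  carrier := Unit
  pt := ()

end PSpace

open PSpace

/-- A sequential spectrum: pointed spaces `X_n` and maps `X_n → Ω X_{n+1}`. -/
structure Spectrum where
  /-- the spaces -/
  space : ℕ → PSpace
  /-- the structure maps -/
  str : ∀ n, space n ⟶ Om.obj (space (n + 1))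

/-- A map of sequential spectra. -/
@[ext]
structure Spectrum.Hom (X Y : Spectrum) where
  /-- the components -/
  map : ∀ n, X.space n ⟶ Y.space n
  comm : ∀ n, map n ≫ Y.str n = X.str n ≫ Om.map (map (n + 1))

instance : Category Spectrum where
  Hom := Spectrum.Hom
  id X := ⟨fun n => 𝟙 _, fun n => by simp⟩
  comp f g := ⟨fun n => f.map n ≫ g.map n, fun n => by
    rw [Category.assoc, g.comm, ← Category.assoc, f.comm, Category.assoc, Functor.map_comp]⟩

namespace Spectrum

/-- The component of a map of spectra. -/
def mapAt {X Y : Spectrum} (f : X ⟶ Y) (n : ℕ) : X.space n ⟶ Y.space n := Spectrum.Hom.map f n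

/-- The points of `Ω^m X_n`. Their path components form `π_m(X_n)`. -/
abbrev L (X : Spectrum) (m n : ℕ) : Type := ((loops m).obj (X.space n)).carrier

/-- The base point of `Ω^m X_n`. -/
abbrev Lpt (X : Spectrum) (m n : ℕ) : X.L m n := ((loops m).obj (X.space n)).pt

/-- Stabilization `Ω^m X_n → Ω^{m+j} X_{n+j}`. -/
def stab (X : Spectrum) (m n : ℕ) : (j : ℕ) → X.L m n → X.L (m + j) (n + j)
  | 0 => fun a => a
  | j + 1 => fun a => Hom.app ((loops (m + j)).map (X.str (n + j))) (X.stab m n j a)

/-- The map `Ω^m X_n → Ω^m Y_n` induced by a map of spectra. -/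
def Lmap {X Y : Spectrum} (f : X ⟶ Y) (m n : ℕ) : X.L m n → Y.L m n :=
  Hom.app ((loops m).map (mapAt f n))

/-- A map of spectra is a stable equivalence if it induces isomorphisms on the stable homotopy
groups `π_k X = colim_n π_{n+k}(X_n)`. Injectivity: an element `a` of `π_m(X_n)` whose image in
`π_m(Y_n)` is zero becomes zero after stabilization. Surjectivity: an element `b` of `π_m(Y_n)`
comes, after stabilization, from an element of `π_{m+j}(X_{n+j})`. -/
def StableEquiv {X Y : Spectrum} (f : X ⟶ Y) : Prop :=
  (∀ m n (a : X.L m n), Joined (Lmap f m n a) (Y.Lpt m n) →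
    ∃ j, Joined (X.stab m n j a) (X.Lpt (m + j) (n + j))) ∧
  (∀ m n (b : Y.L m n), ∃ (j : ℕ) (a : X.L (m + j) (n + j)),
    Joined (Lmap f (m + j) (n + j) a) (Y.stab m n j b))

/-- The class of stable equivalences. -/
def stableEquivalences : MorphismProperty Spectrum := fun _ _ f => StableEquiv f

/-- The sphere spectrum. -/
def sphere : Spectrum where
  space n := PSpace.sphere n
  str n := PSpace.suspUnit (PSpace.sphere n)

/-- The zero spectrum. -/
def zero : Spectrum where
  space _ := PSpace.point
  str _ := ⟨ContinuousMap.const _ (Om.obj PSpace.point).pt, rfl⟩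

/-- The shift functor, `(Sh X)_n = X_{n+1}`. In the stable homotopy category it is the
suspension. -/
def shift : Spectrum ⥤ Spectrum where
  obj X := ⟨fun n => X.space (n + 1), fun n => X.str (n + 1)⟩
  map f := ⟨fun n => mapAt f (n + 1), fun n => Spectrum.Hom.comm f (n + 1)⟩

end Spectrum

open Spectrum

/-- The stable homotopy category: the localization of the category of sequential spectra at the
stable equivalences. -/
abbrev SH := stableEquivalences.Localization

/-- The localization functor from spectra to the stable homotopy category. -/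
abbrev Q : Spectrum ⥤ SH := stableEquivalences.Q

lemma sigma_stab_shift (X : Spectrum) (m n j : ℕ) (a : (shift.obj X).L m n) :
    (⟨(n + j) + 1, (shift.obj X).stab m n j a⟩ : Σ r, X.L (m + j) r) =
      ⟨(n + 1) + j, X.stab m (n + 1) j a⟩ := by
  induction j with
  | zero => rfl
  | succ j ih =>
    exact congrArg (fun x : Σ r, X.L (m + j) r =>
      (⟨x.1 + 1, Hom.app ((loops (m + j)).map (X.str x.1)) x.2⟩ : Σ r, X.L (m + j + 1) r)) ih

/-- The shift functor preserves stable equivalences. -/
lemma stableEquiv_shift {X Y : Spectrum} (f : X ⟶ Y) (hf : StableEquiv f) :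
    StableEquiv (shift.map f) := by
  constructor
  · intro m n a ha
    obtain ⟨j, hj⟩ := hf.1 m (n + 1) a ha
    refine ⟨j, ?_⟩
    have h := sigma_stab_shift X m n j a
    let P : (Σ r, X.L (m + j) r) → Prop := fun x => Joined x.2 (X.Lpt (m + j) x.1)
    have h1 : P ⟨(n + 1) + j, X.stab m (n + 1) j a⟩ := hj
    rw [← h] at h1
    exact h1
  · intro m n b
    obtain ⟨j, a, ha⟩ := hf.2 m (n + 1) b
    have h := sigma_stab_shift Y m n j b
    let P : (Σ r, Y.L (m + j) r) → Prop := fun x => ∃ a : X.L (m + j) x.1,
      Joined (Lmap f (m + j) x.1 a) x.2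
    have h1 : P ⟨(n + 1) + j, Y.stab m (n + 1) j b⟩ := ⟨a, ha⟩
    rw [← h] at h1
    obtain ⟨a', ha'⟩ := h1
    exact ⟨j, a', ha'⟩

/-- The suspension functor of the stable homotopy category, induced by the shift of spectra. -/
noncomputable def Sh : SH ⥤ SH :=
  Localization.Construction.lift (shift ⋙ Q) fun _ _ f hf =>
    stableEquivalences.Q_inverts _ (stableEquiv_shift f hf)

/-- The iterated suspension functor. -/
noncomputable def Shi : ℕ → (SH ⥤ SH)
  | 0 => 𝟭 _
  | i + 1 => Shi i ⋙ Sh

/-- The homotopy groups `π_i Z`, for `i ≥ 0`: maps in the stable homotopy category from the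
`i`-fold suspension of the sphere spectrum to `Z`. -/
abbrev Pi (i : ℕ) (Z : SH) := (Shi i).obj (Q.obj Spectrum.sphere) ⟶ Z

/-- `Σ^{i+j} Z ≅ Σ^j Σ^i Z`. -/
noncomputable def shiAdd (Z : SH) (i : ℕ) : (j : ℕ) → ((Shi (i + j)).obj Z ≅ (Shi j).obj ((Shi i).obj Z))
  | 0 => Iso.refl _
  | j + 1 => Sh.mapIso (shiAdd Z i j)

/-- The product `y x` in `π_{i+j} Z` of `x ∈ π_i S` and `y ∈ π_j Z`: the composite
`Σ^{i+j} S ≅ Σ^j Σ^i S ⟶ Σ^j S ⟶ Z`. -/
noncomputable def mulPi {i j : ℕ} {Z : SH} (x : Pi i (Q.obj Spectrum.sphere)) (y : Pi j Z) :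
    Pi (i + j) Z :=
  (shiAdd _ i j).hom ≫ (Shi j).map x ≫ y

/-- A morphism of the stable homotopy category is null if it factors through the zero
spectrum. -/
def IsNull {X Y : SH} (f : X ⟶ Y) : Prop :=
  ∃ (a : X ⟶ Q.obj Spectrum.zero) (b : Q.obj Spectrum.zero ⟶ Y), f = a ≫ b

end Vale.Agent.P251.Stable
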