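import Vale.Agent.P251.H240.Loc

/-!
# The argument: `i_n` has no retraction
-/

open CategoryTheory

namespace Vale.Agent.P251.SHC

/-- A class of acyclic spectra contained in another one has more local objects. -/
lemma IsLocal.mono {A B : Spectrum → Prop} (h : ∀ W, A W → B W) {Z : SH} (hZ : IsLocal B Z) :
    IsLocal A Z :=
  fun W hW => hZ W (h W hW)

lemma IsNull.comp_right {X Y Z : SH} {f : X ⟶ Y} (hf : IsNull f) (g : Y ⟶ Z) :
    IsNull (f ≫ g) := by
  obtain ⟨a, b, rfl⟩ := hf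
  exact ⟨a, b ≫ g, by rw [Category.assoc]⟩

lemma mulPi_comp {i j : ℕ} {Z : SH} (x : Pi i S) (y : Pi j S) (u : S ⟶ Z) :
    mulPi x y ≫ u = mulPi x (y ≫ u : Pi j Z) := by
  change ((shiAdd j i S).hom ≫ (Shi j).map x ≫ y) ≫ u =
    (shiAdd j i S).hom ≫ (Shi j).map x ≫ y ≫ u
  rw [Category.assoc, Category.assoc]

/-- The `k`-th power of an element of positive even degree maps to zero in `π_* Z` if `2 k`
exceeds the length of the filtration. -/
lemma isNull_powPi {N : ℕ} {Z : SH} (h : HasVanishingLine N Z) (u : S ⟶ Z) {i : ℕ} (hi : 0 < i)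
    (hi' : Even i) (β : Pi i S) (k : ℕ) (hk : N < 2 * k) : IsNull (powPi β k ≫ u) := by
  obtain ⟨F, h0, h1, h2, h3⟩ := h
  have key : ∀ k, (powPi β k ≫ u : Pi (i * k) Z) ∈ F (2 * k) (i * k) := by
    intro k
    induction k with
    | zero => rw [Nat.mul_zero 2, h0]; exact Set.mem_univ _
    | succ k ih =>
      have h5 := h1 (2 * k) i (i * k) β _ hi ih
      rw [← mulPi_comp] at h5
      refine h2 (2 * k + 1) (i * k + i) ?_ h5
      have h7 : Odd (2 * k + 1) := ⟨k, rfl⟩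
      exact h7.add_even ((hi'.mul_right k).add hi')
  exact h3 _ _ hk _ (key k)

/-- A class which is zero in `π_* L_{K(n)} S_p` but not in `π_* L_{K(m)} S_p`, `m < n`, shows that
`L_{n-1} S_p ⟶ L_{n-1} L_{K(n)} S_p` has no retraction. -/
theorem no_retraction (K : ℕ → Spectrum) {n m : ℕ} (hmn : m ≤ n)
    {S₀ X Z Y V : SH} (l : S₀ ⟶ X) (hl : IsLocalization (UpToAcyclic K n) l)
    (z : S₀ ⟶ Z) (y : Z ⟶ Y) (v : S₀ ⟶ V) (hv : IsLocalization (HeightAcyclic K m) v)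
    (i : X ⟶ Y) (hi : l ≫ i = z ≫ y) {W : SH} (x : W ⟶ S₀) (hx : IsNull (x ≫ z))
    (hx' : ¬ IsNull (x ≫ v)) : ¬ ∃ r : Y ⟶ X, i ≫ r = 𝟙 X := by
  rintro ⟨r, hr⟩
  have hV : IsLocal (UpToAcyclic K n) V := hv.1.mono (fun W hW => hW m hmn)
  obtain ⟨v', hv'⟩ := (hl.2 V hV).2 v
  apply hx'
  have h1 : x ≫ v = (x ≫ z) ≫ (y ≫ r ≫ v') := by
    have h2 : l = z ≫ y ≫ r := by
      rw [← Category.comp_id l, ← hr, ← Category.assoc, hi, Category.assoc]
    have hv'' : l ≫ v' = v := hv'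
    rw [← hv'', Category.assoc]
    conv_lhs => rw [h2]
    simp only [Category.assoc]
  rw [h1]
  exact hx.comp_right _

end Vale.Agent.P251.SHC
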